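import Mathlib

/-!
# P174: definitions for the height-dominance theorem

Systems of equations over a group `G` in the unknowns `x_0, ..., x_{n-1}`, written as words.
-/

open Monoid

universe u

namespace Vale.Agent.Lib.P174

/-- Solvable over `G`: the canonical map `G → (G * F_n) / ⟨⟨w⟩⟩` is injective. -/
def SolvableOver {G : Type u} [Group G] {m n : ℕ} (w : Fin m → Coprod G (FreeGroup (Fin n))) :
    Prop :=
  Function.Injective fun g : G =>
    (QuotientGroup.mk (Coprod.inl g) :
      Coprod G (FreeGroup (Fin n)) ⧸ Subgroup.normalClosure (Set.range w))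

/-- The element of `G * F_n` spelled by a word: the letter `(g, j, true)` stands for `g * x_j`,
the letter `(g, j, false)` for `g * x_j⁻¹`. -/
def wordVal {G : Type u} [Group G] {n : ℕ} :
    List (G × Fin n × Bool) → Coprod G (FreeGroup (Fin n))
  | [] => 1
  | (g, j, true) :: L => Coprod.inl g * Coprod.inr (FreeGroup.of j) * wordVal L
  | (g, j, false) :: L => Coprod.inl g * (Coprod.inr (FreeGroup.of j))⁻¹ * wordVal L

/-- Height reached after reading a word from height `h`: a coefficient `g` raises the height by
`θ g`, the letter `x_j` by `τ j`, the letter `x_j⁻¹` by `- τ j`. -/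
def endHeight {G : Type u} {n : ℕ} (θ : G → ℝ) (τ : Fin n → ℝ) :
    ℝ → List (G × Fin n × Bool) → ℝ
  | h, [] => h
  | h, (g, j, true) :: L => endHeight θ τ (h + θ g + τ j) L
  | h, (g, j, false) :: L => endHeight θ τ (h + θ g - τ j) L

/-- The occurrences of unknowns in a word read from height `h`: each is recorded as
`(unknown, level, sign)`, the level being the height at the tail of the edge `x_j` that is crossed
(the height before a letter `x_j`, the height after a letter `x_j⁻¹`). -/
def occ {G : Type u} {n : ℕ} (θ : G → ℝ) (τ : Fin n → ℝ) :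
    ℝ → List (G × Fin n × Bool) → List (Fin n × ℝ × Bool)
  | _, [] => []
  | h, (g, j, true) :: L => (j, h + θ g, true) :: occ θ τ (h + θ g + τ j) L
  | h, (g, j, false) :: L => (j, h + θ g - τ j, false) :: occ θ τ (h + θ g - τ j) L

end Vale.Agent.Lib.P174
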