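import Mathlib

/-!
# P174: positive equations in one unknown are solvable over every group (wreath-product argument)
-/

universe u

namespace Vale.Agent.Lib.P174

theorem palin {H : Type*} [Group H] : ∀ (N : ℕ) (α : ℕ → H),
    ((List.range N).map (fun j => α j * (α (N - 1 - j))⁻¹)).prod = 1
  | 0, _ => by simp
  | 1, _ => by simp
  | (N + 2), α => by
    have ih := palin N (fun x => α (x + 1))
    rw [List.range_succ_eq_map, List.range_succ]
    simp only [List.map_cons, List.map_map, List.map_append, List.prod_cons, List.prod_append,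
      List.map_nil, List.prod_nil, mul_one]
    have hmid : List.map ((fun j => α j * (α (N + 2 - 1 - j))⁻¹) ∘ Nat.succ) (List.range N)
        = List.map (fun j => α (j + 1) * (α (N - 1 - j + 1))⁻¹) (List.range N) := by
      apply List.map_congr_left
      intro j hj
      have hj' : j < N := List.mem_range.mp hj
      have : N + 2 - 1 - (j + 1) = N - 1 - j + 1 := by omega
      simp only [Function.comp, Nat.succ_eq_add_one, this]
    rw [hmid, ih]
    simp

theorem palin_cyc {H : Type*} [Group H] (c v : ℕ) (hv : v ≤ c) (α : ℕ → H) :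
    ((List.range c).map (fun j => α j * (α ((v + (c - 1 - j)) % c))⁻¹)).prod = 1 := by
  obtain ⟨d, rfl⟩ := Nat.exists_eq_add_of_le hv
  rw [List.range_add, List.map_append, List.prod_append, List.map_map]
  have h1 : List.map (fun j => α j * (α ((v + (v + d - 1 - j)) % (v + d)))⁻¹) (List.range v)
      = List.map (fun j => α j * (α (v - 1 - j))⁻¹) (List.range v) := by
    apply List.map_congr_left
    intro j hj
    have hj' : j < v := List.mem_range.mp hj
    have e : v + (v + d - 1 - j) = (v + d) + (v - 1 - j) := by omega
    rw [e, Nat.add_mod_left, Nat.mod_eq_of_lt (by omega)]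
  have h2 : List.map ((fun j => α j * (α ((v + (v + d - 1 - j)) % (v + d)))⁻¹) ∘ fun x => v + x)
        (List.range d)
      = List.map (fun j => (fun x => α (v + x)) j * ((fun x => α (v + x)) (d - 1 - j))⁻¹)
        (List.range d) := by
    apply List.map_congr_left
    intro j hj
    have hj' : j < d := List.mem_range.mp hj
    have e : v + (v + d - 1 - (v + j)) = v + (d - 1 - j) := by omega
    simp only [Function.comp]
    rw [e, Nat.mod_eq_of_lt (by omega)]
  rw [h1, h2, palin, palin, one_mul]

/-- Left translation on the second coordinate of `ZMod c × H`. -/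
def diagPerm (c : ℕ) (H : Type u) [Group H] : H →* Equiv.Perm (ZMod c × H) where
  toFun a := Equiv.prodCongr (Equiv.refl _) (Equiv.mulLeft a)
  map_one' := by ext x <;> simp
  map_mul' a b := by ext x <;> simp [mul_assoc]

/-- The twisted shift of `ZMod c × H`. -/
def shiftPerm (c : ℕ) {H : Type u} [Group H] (f : ZMod c → H) : Equiv.Perm (ZMod c × H) where
  toFun x := (x.1 + 1, f x.1 * x.2)
  invFun x := (x.1 - 1, (f (x.1 - 1))⁻¹ * x.2)
  left_inv x := by simp
  right_inv x := by simp

theorem eval_word (c : ℕ) {H : Type u} [Group H] (f : ZMod c → H) (α : ℕ → H) :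
    ∀ (k : ℕ) (i : ZMod c) (h : H),
      ((List.range k).map (fun j => diagPerm c H (α j) * shiftPerm c f)).prod (i, h)
        = (i + k, ((List.range k).map
            (fun j => α j * f (i + ((k - 1 - j : ℕ) : ZMod c)))).prod * h)
  | 0, i, h => by simp
  | (k + 1), i, h => by
    rw [List.range_succ, List.map_append, List.prod_append, List.map_append, List.prod_append]
    simp only [List.map_cons, List.map_nil, List.prod_cons, List.prod_nil, mul_one,
      Equiv.Perm.mul_apply]
    have e1 : (diagPerm c H (α k)) ((shiftPerm c f) (i, h)) = (i + 1, α k * f i * h) := by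
      simp [diagPerm, shiftPerm, mul_assoc]
    rw [e1, eval_word c f α k (i + 1) (α k * f i * h)]
    have hmid : List.map (fun j => α j * f (i + 1 + ((k - 1 - j : ℕ) : ZMod c))) (List.range k)
        = List.map (fun j => α j * f (i + ((k + 1 - 1 - j : ℕ) : ZMod c))) (List.range k) := by
      apply List.map_congr_left
      intro j hj
      have hj' : j < k := List.mem_range.mp hj
      have : k + 1 - 1 - j = (k - 1 - j) + 1 := by omega
      rw [this]
      push_cast
      ring_nf
    rw [hmid]
    ext
    · simp; ring
    · simp [mul_assoc]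

theorem levin_core {H : Type u} [Group H] (c : ℕ) (hc : c ≠ 0) (α : ℕ → H) :
    ∃ (H' : Type u) (_ : Group H') (φ : H →* H') (t : H'), Function.Injective φ ∧
      ((List.range c).map (fun j => φ (α j) * t)).prod = 1 := by
  have : NeZero c := ⟨hc⟩
  refine ⟨Equiv.Perm (ZMod c × H), inferInstance, diagPerm c H,
    shiftPerm c (fun b => (α b.val)⁻¹), ?_, ?_⟩
  · intro a b hab
    have := congrArg (fun p : Equiv.Perm (ZMod c × H) => (p (0, 1)).2) hab
    simpa [diagPerm] using this
  · ext ⟨i, h⟩
    · rw [eval_word]; simp
    · rw [eval_word]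
      have : List.map (fun j => α j * (α (i + ((c - 1 - j : ℕ) : ZMod c)).val)⁻¹) (List.range c)
          = List.map (fun j => α j * (α ((i.val + (c - 1 - j)) % c))⁻¹) (List.range c) := by
        apply List.map_congr_left
        intro j hj
        rw [ZMod.val_add, ZMod.val_natCast, Nat.add_mod_mod]
      simp only [this]
      rw [palin_cyc c i.val (ZMod.val_lt i).le]
      simp

theorem levin_list {H : Type u} [Group H] (L : List H) (hL : L ≠ []) (b : H) :
    ∃ (H' : Type u) (_ : Group H') (φ : H →* H') (t : H'), Function.Injective φ ∧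
      (L.map (fun a => φ a * t)).prod * φ b = 1 := by
  obtain ⟨a0, L', rfl⟩ := List.exists_cons_of_ne_nil hL
  obtain ⟨H', gH', φ, t, hφ, hprod⟩ := levin_core (H := H) ((b * a0) :: L').length (by simp)
    (fun j => ((b * a0) :: L').getD j 1)
  refine ⟨H', gH', φ, t, hφ, ?_⟩
  have hlist : (List.range ((b * a0) :: L').length).map (fun j => ((b * a0) :: L').getD j 1)
      = (b * a0) :: L' := by
    apply List.ext_getElem
    · simp
    · intro i h1 h2
      simp only [List.getElem_map, List.getElem_range]
      rw [List.getD_eq_getElem _ _ h2]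
  have h2 : (((b * a0) :: L').map (fun a => φ a * t)).prod = 1 := by
    rw [← hprod]
    conv_lhs => rw [← hlist]
    rw [List.map_map]
    rfl
  simp only [List.map_cons, List.prod_cons, map_mul] at h2 ⊢
  have h3 : φ a0 * t * (List.map (fun a => φ a * t) L').prod = (φ b)⁻¹ := by
    apply eq_inv_of_mul_eq_one_right
    rw [← h2]
    simp only [mul_assoc]
  rw [h3]; simp

end Vale.Agent.Lib.P174
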