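import Vale.Agent.Lib.P174.HeightDefs
import Vale.Agent.Lib.P174.Levin

/-!
# P174: proof of the height-dominance theorem
-/

open Monoid

universe u

namespace Vale.Agent.Lib.P174

/-- The unrestricted wreath product of `K` by the additive group `ℝ`. -/
structure Wr (K : Type u) where
  fn : ℝ → K
  lv : ℝ

namespace Wr

@[ext] theorem ext' {K : Type u} {x y : Wr K} (h1 : ∀ a, x.fn a = y.fn a) (h2 : x.lv = y.lv) : x = y := by
  cases x; cases y
  simp only [mk.injEq]
  exact ⟨funext h1, h2⟩

variable {K : Type u} [Group K]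

instance : Mul (Wr K) := ⟨fun x y => ⟨fun a => x.fn a * y.fn (a + x.lv), x.lv + y.lv⟩⟩
instance : One (Wr K) := ⟨⟨fun _ => 1, 0⟩⟩
instance : Inv (Wr K) := ⟨fun x => ⟨fun a => (x.fn (a - x.lv))⁻¹, -x.lv⟩⟩

@[simp] theorem mul_fn (x y : Wr K) (a : ℝ) : (x * y).fn a = x.fn a * y.fn (a + x.lv) := rfl
@[simp] theorem mul_lv (x y : Wr K) : (x * y).lv = x.lv + y.lv := rfl
@[simp] theorem one_fn (a : ℝ) : (1 : Wr K).fn a = 1 := rfl
@[simp] theorem one_lv : (1 : Wr K).lv = 0 := rfl
@[simp] theorem inv_fn (x : Wr K) (a : ℝ) : (x⁻¹).fn a = (x.fn (a - x.lv))⁻¹ := rfl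
@[simp] theorem inv_lv (x : Wr K) : (x⁻¹).lv = -x.lv := rfl

instance : Group (Wr K) where
  mul_assoc x y z := by
    ext a
    · simp [mul_assoc, add_assoc]
    · simp [add_assoc]
  one_mul x := by ext a <;> simp
  mul_one x := by ext a <;> simp
  inv_mul_cancel x := by ext a <;> simp [sub_eq_add_neg]

end Wr

variable {G : Type u} [Group G] {n : ℕ}

/-- The twisted diagonal embedding data. -/
def kap {K : Type u} [Group K] (θ : G → ℝ) (hθ : ∀ a b, θ (a * b) = θ a + θ b) (ι : G →* K) :
    G →* Wr K where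
  toFun g := ⟨fun _ => ι g, θ g⟩
  map_one' := by
    have h0 : θ 1 = 0 := by
      have := hθ 1 1
      simp at this
      linarith
    ext a <;> simp [h0]
  map_mul' a b := by ext c <;> simp [hθ]

/-- Evaluation of `G * F_n` in the wreath product. -/
def evW {K : Type u} [Group K] (θ : G → ℝ) (hθ : ∀ a b, θ (a * b) = θ a + θ b) (τ : Fin n → ℝ)
    (ι : G →* K) (y : Fin n × ℝ → K) : Coprod G (FreeGroup (Fin n)) →* Wr K :=
  Coprod.lift (kap θ hθ ι) (FreeGroup.lift fun j => ⟨fun a => y (j, a), τ j⟩)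

/-- The value of the derived equation read from height `h`. -/
def dval {K : Type u} [Group K] (θ : G → ℝ) (τ : Fin n → ℝ) (ι : G →* K) (y : Fin n × ℝ → K) :
    ℝ → List (G × Fin n × Bool) → K
  | _, [] => 1
  | h, (g, j, true) :: L => ι g * y (j, h + θ g) * dval θ τ ι y (h + θ g + τ j) L
  | h, (g, j, false) :: L => ι g * (y (j, h + θ g - τ j))⁻¹ * dval θ τ ι y (h + θ g - τ j) L

theorem evW_wordVal {K : Type u} [Group K] (θ : G → ℝ) (hθ : ∀ a b, θ (a * b) = θ a + θ b)
    (τ : Fin n → ℝ) (ι : G →* K) (y : Fin n × ℝ → K) :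
    ∀ (L : List (G × Fin n × Bool)) (a : ℝ),
      (evW θ hθ τ ι y (wordVal L)).fn a = dval θ τ ι y a L ∧
      a + (evW θ hθ τ ι y (wordVal L)).lv = endHeight θ τ a L
  | [], a => by simp [wordVal, dval, endHeight]
  | (g, j, true) :: L, a => by
    have ih := evW_wordVal θ hθ τ ι y L (a + θ g + τ j)
    constructor
    · simp only [wordVal, dval, map_mul, Wr.mul_fn, Wr.mul_lv]
      rw [← ih.1]
      simp [evW, kap, add_assoc]
    · simp only [wordVal, endHeight, map_mul, Wr.mul_lv]
      rw [← ih.2]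
      simp [evW, kap, add_assoc]
  | (g, j, false) :: L, a => by
    have ih := evW_wordVal θ hθ τ ι y L (a + θ g - τ j)
    constructor
    · simp only [wordVal, dval, map_mul, map_inv, Wr.mul_fn, Wr.mul_lv]
      rw [← ih.1]
      simp [evW, kap, add_assoc, sub_eq_add_neg]
    · simp only [wordVal, endHeight, map_mul, map_inv, Wr.mul_lv]
      rw [← ih.2]
      simp [evW, kap, add_assoc, sub_eq_add_neg]

omit [Group G] in
theorem occ_shift (θ : G → ℝ) (τ : Fin n → ℝ) :
    ∀ (L : List (G × Fin n × Bool)) (h a : ℝ),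
      occ θ τ (h + a) L = (occ θ τ h L).map (fun o => (o.1, o.2.1 + a, o.2.2))
  | [], h, a => by simp [occ]
  | (g, j, true) :: L, h, a => by
    have e1 : h + a + θ g + τ j = (h + θ g + τ j) + a := by ring
    have e2 : h + a + θ g = h + θ g + a := by ring
    simp only [occ, List.map_cons]
    rw [e1, occ_shift θ τ L, e2]
  | (g, j, false) :: L, h, a => by
    have e1 : h + a + θ g - τ j = (h + θ g - τ j) + a := by ring
    simp only [occ, List.map_cons]
    rw [e1, occ_shift θ τ L]

/-- Transport an assignment along `φ` and give the unknown `p` the value `t`. -/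
noncomputable def updY {H H' : Type u} [Group H] [Group H'] (η : Fin n × ℝ → H) (p : Fin n × ℝ)
    (φ : H →* H') (t : H') : Fin n × ℝ → H' := fun q => if q = p then t else φ (η q)

theorem dval_indep (θ : G → ℝ) (τ : Fin n → ℝ) {H H' : Type u} [Group H] [Group H']
    (ι : G →* H) (η : Fin n × ℝ → H) (p : Fin n × ℝ) (φ : H →* H') (t : H') :
    ∀ (L : List (G × Fin n × Bool)) (h : ℝ), (∀ o ∈ occ θ τ h L, (o.1, o.2.1) ≠ p) →
      dval θ τ (φ.comp ι) (updY η p φ t) h L = φ (dval θ τ ι η h L)
  | [], h, _ => by simp [dval]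
  | (g, j, true) :: L, h, hocc => by
    have h1 : (j, h + θ g) ≠ p := hocc (j, h + θ g, true) (by simp [occ])
    have ih := dval_indep θ τ ι η p φ t L (h + θ g + τ j)
      (fun o ho => hocc o (by simp [occ, ho]))
    simp only [dval, ih, map_mul]
    simp [updY, h1]
  | (g, j, false) :: L, h, hocc => by
    have h1 : (j, h + θ g - τ j) ≠ p := hocc (j, h + θ g - τ j, false) (by simp [occ])
    have ih := dval_indep θ τ ι η p φ t L (h + θ g - τ j)
      (fun o ho => hocc o (by simp [occ, ho]))
    simp only [dval, ih, map_mul, map_inv]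
    simp [updY, h1]

theorem absorb {H : Type u} [Group H] (u : H) (Lst : List H) (b : H) :
    ∃ (Lst' : List H) (b' : H), (Lst ≠ [] → Lst' ≠ []) ∧
      ∀ (H' : Type u) [Group H'] (φ : H →* H') (t : H'),
        φ u * ((Lst.map (fun a => φ a * t)).prod * φ b) = (Lst'.map (fun a => φ a * t)).prod * φ b' := by
  cases Lst with
  | nil => exact ⟨[], u * b, by simp, by intros; simp⟩
  | cons a0 Lst0 => exact ⟨(u * a0) :: Lst0, b, by simp, by intros; simp [mul_assoc]⟩

theorem dval_pivot (θ : G → ℝ) (τ : Fin n → ℝ) {H : Type u} [Group H]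
    (ι : G →* H) (η : Fin n × ℝ → H) (p : Fin n × ℝ) :
    ∀ (L : List (G × Fin n × Bool)) (h : ℝ),
      (∀ o ∈ occ θ τ h L, o = (p.1, p.2, true) ∨ (o.1, o.2.1) ≠ p) →
      ∃ (Lst : List H) (b : H),
        ((p.1, p.2, true) ∈ occ θ τ h L → Lst ≠ []) ∧
        ∀ (H' : Type u) [Group H'] (φ : H →* H') (t : H'),
          dval θ τ (φ.comp ι) (updY η p φ t) h L = (Lst.map (fun a => φ a * t)).prod * φ b
  | [], h, _ => ⟨[], 1, by simp [occ], by intros; simp [dval]⟩
  | (g, j, true) :: L, h, hocc => by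
    obtain ⟨Lst, b, hne, hev⟩ := dval_pivot θ τ ι η p L (h + θ g + τ j)
      (fun o ho => hocc o (by simp [occ, ho]))
    by_cases hp : (j, h + θ g) = p
    · refine ⟨ι g :: Lst, b, by simp, ?_⟩
      intro H' _ φ t
      simp only [dval, hev H' φ t]
      simp [updY, hp, mul_assoc]
    · obtain ⟨Lst', b', hne', hab⟩ := absorb (ι g * η (j, h + θ g)) Lst b
      refine ⟨Lst', b', ?_, ?_⟩
      · intro hmem
        apply hne'
        apply hne
        simp only [occ, List.mem_cons] at hmem
        rcases hmem with hmem | hmem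
        · exfalso
          apply hp
          have h1 := congrArg Prod.fst hmem
          have h2 := congrArg (fun z => z.2.1) hmem
          simp only at h1 h2
          exact Prod.ext h1.symm h2.symm
        · exact hmem
      · intro H' _ φ t
        simp only [dval, hev H' φ t]
        rw [← hab H' φ t]
        simp [updY, hp, mul_assoc]
  | (g, j, false) :: L, h, hocc => by
    obtain ⟨Lst, b, hne, hev⟩ := dval_pivot θ τ ι η p L (h + θ g - τ j)
      (fun o ho => hocc o (by simp [occ, ho]))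
    have hp : (j, h + θ g - τ j) ≠ p := by
      rcases hocc (j, h + θ g - τ j, false) (by simp [occ]) with h1 | h1
      · exfalso
        have := congrArg (fun z => z.2.2) h1
        simp at this
      · exact h1
    obtain ⟨Lst', b', hne', hab⟩ := absorb (ι g * (η (j, h + θ g - τ j))⁻¹) Lst b
    refine ⟨Lst', b', ?_, ?_⟩
    · intro hmem
      apply hne'
      apply hne
      simp only [occ, List.mem_cons] at hmem
      rcases hmem with hmem | hmem
      · exfalso
        have := congrArg (fun z => z.2.2) hmem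
        simp at this
      · exact hmem
    · intro H' _ φ t
      simp only [dval, hev H' φ t]
      rw [← hab H' φ t]
      simp [updY, hp, mul_assoc]

/-- The dominance hypotheses, bundled. -/
structure Dominant {m : ℕ} (L : Fin m → List (G × Fin n × Bool)) (θ : G → ℝ) (τ σ : Fin n → ℝ)
    (π : Fin m → Fin n) (μ : Fin m → ℝ) : Prop where
  inj : Function.Injective π
  top : ∀ i, (π i, μ i, true) ∈ occ θ τ 0 (L i)
  dom : ∀ i, ∀ o ∈ occ θ τ 0 (L i), o = (π i, μ i, true) ∨ o.2.1 + σ o.1 < μ i + σ (π i)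

theorem stage {m : ℕ} (L : Fin m → List (G × Fin n × Bool)) (θ : G → ℝ) (τ σ : Fin n → ℝ)
    (π : Fin m → Fin n) (μ : Fin m → ℝ) (hD : Dominant L θ τ σ π μ) (s : Finset (Fin m × ℝ)) :
    ∃ (H : Type u) (_ : Group H) (ι : G →* H) (η : Fin n × ℝ → H), Function.Injective ι ∧
      ∀ x ∈ s, dval θ τ ι η x.2 (L x.1) = 1 := by
  induction s using Finset.induction_on_max_value (fun x : Fin m × ℝ => x.2 + μ x.1 + σ (π x.1)) with
  | empty => exact ⟨G, inferInstance, MonoidHom.id G, fun _ => 1, Function.injective_id, by simp⟩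
  | insert x s hx hmax ih =>
    obtain ⟨H, gH, ι, η, hι, hsol⟩ := ih
    obtain ⟨i, a⟩ := x
    -- description of the occurrences read from height `a'`
    have hocc : ∀ (i' : Fin m) (a' : ℝ), ∀ o ∈ occ θ τ a' (L i'),
        (o.1, o.2.1 - a', o.2.2) ∈ occ θ τ 0 (L i') := by
      intro i' a' o ho
      have := occ_shift θ τ (L i') 0 a'
      rw [zero_add] at this
      rw [this, List.mem_map] at ho
      obtain ⟨o', ho', rfl⟩ := ho
      simpa using ho'
    obtain ⟨Lst, b, hne, hev⟩ := dval_pivot θ τ ι η (π i, a + μ i) (L i) a (by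
      intro o ho
      rcases hD.dom i _ (hocc i a o ho) with h1 | h1
      · left
        obtain ⟨o1, o2, o3⟩ := o
        simp only [Prod.mk.injEq] at h1 ⊢
        refine ⟨h1.1, by linarith [h1.2.1], h1.2.2⟩
      · right
        intro h2
        obtain ⟨o1, o2, o3⟩ := o
        simp only [Prod.mk.injEq] at h2
        obtain ⟨rfl, rfl⟩ := h2
        simp at h1)
    have hLst : Lst ≠ [] := by
      apply hne
      have := occ_shift θ τ (L i) 0 a
      rw [zero_add] at this
      rw [this, List.mem_map]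
      exact ⟨_, hD.top i, by simp [add_comm]⟩
    obtain ⟨H', gH', φ, t, hφ, hprod⟩ := levin_list Lst hLst b
    refine ⟨H', gH', φ.comp ι, updY η (π i, a + μ i) φ t, hφ.comp hι, ?_⟩
    intro x' hx'
    rcases Finset.mem_insert.mp hx' with rfl | hx's
    · rw [hev H' φ t, hprod]
    · obtain ⟨i', a'⟩ := x'
      rw [dval_indep, hsol _ hx's, map_one]
      intro o ho h2
      have hle := hmax _ hx's
      simp only at hle
      obtain ⟨o1, o2, o3⟩ := o
      simp only [Prod.mk.injEq] at h2
      obtain ⟨rfl, rfl⟩ := h2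
      rcases hD.dom i' _ (hocc i' a' _ ho) with h1 | h1
      · simp only [Prod.mk.injEq] at h1
        have hi : i = i' := hD.inj h1.1
        subst hi
        have ha : a = a' := by linarith [h1.2.1]
        subst ha
        exact hx hx's
      · simp only at h1
        linarith

theorem normalClosure_finite {P : Type*} [Group P] {I : Type*} (E : I → P) (z : P)
    (hz : z ∈ Subgroup.normalClosure (Set.range E)) :
    ∃ s : Finset I, z ∈ Subgroup.normalClosure (E '' (s : Set I)) := by
  classical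
  unfold Subgroup.normalClosure at hz
  induction hz using Subgroup.closure_induction with
  | mem x hx =>
    rw [Group.mem_conjugatesOfSet_iff] at hx
    obtain ⟨y, ⟨i, rfl⟩, hconj⟩ := hx
    refine ⟨{i}, ?_⟩
    apply Subgroup.conjugatesOfSet_subset_normalClosure
    rw [Group.mem_conjugatesOfSet_iff]
    exact ⟨E i, by simp, hconj⟩
  | one => exact ⟨∅, Subgroup.one_mem _⟩
  | mul x y _ _ hx hy =>
    obtain ⟨s1, h1⟩ := hx
    obtain ⟨s2, h2⟩ := hy
    refine ⟨s1 ∪ s2, Subgroup.mul_mem _ ?_ ?_⟩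
    · exact Subgroup.normalClosure_mono (Set.image_mono (by simp)) h1
    · exact Subgroup.normalClosure_mono (Set.image_mono (by simp)) h2
  | inv x _ hx =>
    obtain ⟨s1, h1⟩ := hx
    exact ⟨s1, Subgroup.inv_mem _ h1⟩

theorem dval_map (θ : G → ℝ) (τ : Fin n → ℝ) {K H : Type u} [Group K] [Group H]
    (ι : G →* K) (y : Fin n × ℝ → K) (f : K →* H) :
    ∀ (L : List (G × Fin n × Bool)) (h : ℝ),
      f (dval θ τ ι y h L) = dval θ τ (f.comp ι) (fun q => f (y q)) h L
  | [], h => by simp [dval]
  | (g, j, true) :: L, h => by simp [dval, dval_map θ τ ι y f L]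
  | (g, j, false) :: L, h => by simp [dval, dval_map θ τ ι y f L]

/-- The derived equations in `G * F(Fin n × ℝ)`. -/
def derived {m : ℕ} (L : Fin m → List (G × Fin n × Bool)) (θ : G → ℝ) (τ : Fin n → ℝ)
    (x : Fin m × ℝ) : Coprod G (FreeGroup (Fin n × ℝ)) :=
  dval θ τ Coprod.inl (fun q => Coprod.inr (FreeGroup.of q)) x.2 (L x.1)

theorem derived_inj {m : ℕ} (L : Fin m → List (G × Fin n × Bool)) (θ : G → ℝ) (τ σ : Fin n → ℝ)
    (π : Fin m → Fin n) (μ : Fin m → ℝ) (hD : Dominant L θ τ σ π μ) (g : G)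
    (hg : (Coprod.inl g : Coprod G (FreeGroup (Fin n × ℝ))) ∈
      Subgroup.normalClosure (Set.range (derived L θ τ))) : g = 1 := by
  obtain ⟨s, hs⟩ := normalClosure_finite _ _ hg
  obtain ⟨H, gH, ι, η, hι, hsol⟩ := stage L θ τ σ π μ hD s
  have hle : Subgroup.normalClosure (derived L θ τ '' (s : Set (Fin m × ℝ))) ≤
      (Coprod.lift ι (FreeGroup.lift η)).ker := by
    apply Subgroup.normalClosure_le_normal
    rintro _ ⟨x, hx, rfl⟩
    rw [SetLike.mem_coe, MonoidHom.mem_ker, derived, dval_map]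
    have e1 : (Coprod.lift ι (FreeGroup.lift η)).comp Coprod.inl = ι := Coprod.lift_comp_inl _ _
    have e2 : (fun q => (Coprod.lift ι (FreeGroup.lift η)) (Coprod.inr (FreeGroup.of q))) = η := by
      funext q
      simp
    rw [e1, e2]
    exact hsol x hx
  have h2 := hle hs
  rw [MonoidHom.mem_ker, Coprod.lift_apply_inl] at h2
  exact hι (by rw [h2, map_one])

/-- The normal subgroup of the wreath product cut out by a normal subgroup of the base. -/
def baseSub {K : Type u} [Group K] (M : Subgroup K) [M.Normal] : Subgroup (Wr K) where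
  carrier := {x | x.lv = 0 ∧ ∀ a, x.fn a ∈ M}
  mul_mem' := by
    rintro x y ⟨hx0, hx⟩ ⟨hy0, hy⟩
    exact ⟨by simp [hx0, hy0], fun a => by simpa using M.mul_mem (hx a) (hy _)⟩
  one_mem' := ⟨rfl, fun _ => M.one_mem⟩
  inv_mem' := by
    rintro x ⟨hx0, hx⟩
    exact ⟨by simp [hx0], fun a => by simpa using M.inv_mem (hx _)⟩

instance baseSub_normal {K : Type u} [Group K] (M : Subgroup K) [hM : M.Normal] :
    (baseSub M).Normal where
  conj_mem := by
    rintro x ⟨hx0, hx⟩ u
    refine ⟨by simp [hx0], fun a => ?_⟩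
    have := hM.conj_mem _ (hx (a + u.lv)) (u.fn a)
    simpa [hx0, mul_assoc] using this

theorem height_dominant {m : ℕ} (L : Fin m → List (G × Fin n × Bool)) (θ : G → ℝ)
    (hθ : ∀ a b, θ (a * b) = θ a + θ b) (τ σ : Fin n → ℝ)
    (π : Fin m → Fin n) (μ : Fin m → ℝ) (hbal : ∀ i, endHeight θ τ 0 (L i) = 0)
    (hD : Dominant L θ τ σ π μ) : SolvableOver (fun i => wordVal (L i)) := by
  intro g g' hgg
  have h1 : (Coprod.inl g : Coprod G (FreeGroup (Fin n)))⁻¹ * Coprod.inl g' ∈
      Subgroup.normalClosure (Set.range fun i => wordVal (L i)) := QuotientGroup.eq.mp hgg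
  set M := Subgroup.normalClosure (Set.range (derived L θ τ)) with hM
  set ev := evW θ hθ τ (Coprod.inl : G →* Coprod G (FreeGroup (Fin n × ℝ)))
    (fun q => Coprod.inr (FreeGroup.of q)) with hev
  have hle : Subgroup.normalClosure (Set.range fun i => wordVal (L i)) ≤
      (baseSub M).comap ev := by
    apply Subgroup.normalClosure_le_normal
    rintro _ ⟨i, rfl⟩
    refine ⟨?_, fun a => ?_⟩
    · have := (evW_wordVal θ hθ τ Coprod.inl (fun q => Coprod.inr (FreeGroup.of q)) (L i) 0).2
      rw [zero_add, hbal i] at this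
      exact this
    · have := (evW_wordVal θ hθ τ Coprod.inl (fun q => Coprod.inr (FreeGroup.of q)) (L i) a).1
      rw [hev, this]
      exact Subgroup.subset_normalClosure ⟨(i, a), rfl⟩
  have h2 := (hle h1).2 0
  have h3 : (ev ((Coprod.inl g)⁻¹ * Coprod.inl g')).fn 0 = Coprod.inl (g⁻¹ * g') := by
    rw [← map_inv, ← map_mul]
    simp [hev, evW, kap]
  rw [h3] at h2
  have := derived_inj L θ τ σ π μ hD _ h2
  exact inv_mul_eq_one.mp this

end Vale.Agent.Lib.P174
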